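import Mathlib

/-! # P355: sums of roots of unity and the number six -/

namespace P355R

open Finset

/-- congruence modulo `p` between complex numbers, in algebraic integers -/
def Cg (p : ℕ) (x y : ℂ) : Prop := ∃ r : ℂ, IsIntegral ℤ r ∧ x = y + p * r

theorem Cg.refl (p : ℕ) (x : ℂ) : Cg p x x := ⟨0, isIntegral_zero, by simp⟩

theorem Cg.symm {p : ℕ} {x y : ℂ} (h : Cg p x y) : Cg p y x := by
  obtain ⟨r, hr, e⟩ := h
  exact ⟨-r, hr.neg, by rw [e]; ring⟩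

theorem Cg.trans {p : ℕ} {x y z : ℂ} (h : Cg p x y) (h' : Cg p y z) : Cg p x z := by
  obtain ⟨r, hr, e⟩ := h
  obtain ⟨r', hr', e'⟩ := h'
  exact ⟨r + r', hr.add hr', by rw [e, e']; ring⟩

theorem Cg.mul {p : ℕ} {x y w : ℂ} (h : Cg p x y) (hw : IsIntegral ℤ w) : Cg p (x * w) (y * w) := by
  obtain ⟨r, hr, e⟩ := h
  exact ⟨r * w, hr.mul hw, by rw [e]; ring⟩

theorem Cg.add {p : ℕ} {x y z w : ℂ} (h : Cg p x y) (h' : Cg p z w) : Cg p (x + z) (y + w) := by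
  obtain ⟨r, hr, e⟩ := h
  obtain ⟨r', hr', e'⟩ := h'
  exact ⟨r + r', hr.add hr', by rw [e, e']; ring⟩

theorem Cg.pow {p : ℕ} {x y : ℂ} (hx : IsIntegral ℤ x) (hy : IsIntegral ℤ y) (h : Cg p x y) :
    ∀ n : ℕ, Cg p (x ^ n) (y ^ n)
  | 0 => by simpa using Cg.refl p 1
  | n + 1 => by
    have h1 := (Cg.pow hx hy h n).mul hx
    have h2 := h.mul (hy.pow n)
    rw [pow_succ, pow_succ]
    refine h1.trans ?_
    rw [mul_comm (y ^ n) x, mul_comm (y ^ n) y]
    exact h2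

theorem integral_conj {x : ℂ} (hx : IsIntegral ℤ x) : IsIntegral ℤ ((starRingEnd ℂ) x) :=
  map_isIntegral_int (starRingEnd ℂ) hx

theorem Cg.conj {p : ℕ} {x y : ℂ} (h : Cg p x y) :
    Cg p ((starRingEnd ℂ) x) ((starRingEnd ℂ) y) := by
  obtain ⟨r, hr, e⟩ := h
  refine ⟨(starRingEnd ℂ) r, integral_conj hr, ?_⟩
  rw [e, map_add, map_mul, Complex.conj_natCast]

theorem frob2 {p : ℕ} (hp : p.Prime) (n : ℕ) {x y : ℂ} (hx : IsIntegral ℤ x)
    (hy : IsIntegral ℤ y) : Cg p ((x + y) ^ p ^ n) (x ^ p ^ n + y ^ p ^ n) := by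
  obtain ⟨r, hr⟩ := exists_add_pow_prime_pow_eq hp (⟨x, hx⟩ : integralClosure ℤ ℂ) ⟨y, hy⟩ n
  refine ⟨x * y * (r : ℂ), (hx.mul hy).mul r.2, ?_⟩
  have := congrArg (fun t : integralClosure ℤ ℂ => (t : ℂ)) hr
  simp at this
  rw [this]; ring

theorem frob {p : ℕ} (hp : p.Prime) (n : ℕ) {ι : Type} (s : Finset ι) (x : ι → ℂ)
    (hx : ∀ i, IsIntegral ℤ (x i)) :
    Cg p ((∑ i ∈ s, x i) ^ p ^ n) (∑ i ∈ s, x i ^ p ^ n) := by
  classical
  induction s using Finset.induction_on with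
  | empty =>
    simp only [sum_empty]
    rw [zero_pow (pow_ne_zero n hp.ne_zero)]
    exact Cg.refl p 0
  | insert a s ha ih =>
    rw [sum_insert ha, sum_insert ha]
    exact (frob2 hp n (hx a) (IsIntegral.sum x fun i _ => hx i)).trans
      ((Cg.refl p _).add ih)

theorem csum {p : ℕ} {ι : Type} (s : Finset ι) (x y : ι → ℂ) (h : ∀ i, Cg p (x i) (y i)) :
    Cg p (∑ i ∈ s, x i) (∑ i ∈ s, y i) := by
  classical
  induction s using Finset.induction_on with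
  | empty => simpa using Cg.refl p 0
  | insert a s ha ih =>
    rw [sum_insert ha, sum_insert ha]
    exact (h a).add ih

/-- the arithmetic core -/
theorem core {p : ℕ} (hp : p.Prime) {j : ℕ} (hj : 1 ≤ j) {ι : Type} (s : Finset ι) (x : ι → ℂ)
    (hx : ∀ i, IsIntegral ℤ (x i)) (hc : ∀ i, Cg p (x i ^ p ^ j) ((starRingEnd ℂ) (x i)))
    (d : ℕ) (hd : p ∣ d) (hd2 : ¬ p ^ 2 ∣ d) :
    (∑ i ∈ s, x i) * (starRingEnd ℂ) (∑ i ∈ s, x i) ≠ (d : ℂ) := by
  intro hz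
  set z := ∑ i ∈ s, x i with hzdef
  have hzi : IsIntegral ℤ z := IsIntegral.sum x fun i _ => hx i
  have h1 : Cg p (z ^ p ^ j) ((starRingEnd ℂ) z) := by
    refine (frob hp j s x hx).trans ?_
    rw [hzdef, map_sum]
    exact csum s _ _ hc
  -- `z ^ (p ^ j + 1)` is divisible by `p`
  have h2 : Cg p (z ^ (p ^ j + 1)) 0 := by
    have h3 := h1.mul hzi
    rw [← pow_succ, mul_comm ((starRingEnd ℂ) z) z, hz] at h3
    refine h3.trans ?_
    obtain ⟨c, rfl⟩ := hd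
    exact ⟨(c : ℂ), isIntegral_natCast c, by push_cast; ring⟩
  -- `z` is congruent to `z ^ (p ^ j * p ^ j)`
  have h4 : Cg p (z ^ (p ^ j * p ^ j)) z := by
    rw [pow_mul]
    refine (Cg.pow (hzi.pow _) (integral_conj hzi) h1 (p ^ j)).trans ?_
    rw [← map_pow]
    have := h1.conj
    rwa [Complex.conj_conj] at this
  have hpj : 2 ≤ p ^ j := by
    calc 2 ≤ p := hp.two_le
      _ = p ^ 1 := (pow_one p).symm
      _ ≤ p ^ j := Nat.pow_le_pow_right hp.pos hj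
  obtain ⟨t, ht⟩ : ∃ t, p ^ j * p ^ j = (p ^ j + 1) + t := by
    refine ⟨p ^ j * p ^ j - (p ^ j + 1), ?_⟩
    have : p ^ j + 1 ≤ p ^ j * p ^ j := by nlinarith
    omega
  have h5 : Cg p z 0 := by
    refine h4.symm.trans ?_
    rw [ht, pow_add]
    have := h2.mul (hzi.pow t)
    rwa [zero_mul] at this
  obtain ⟨w, hw, ew⟩ := h5
  rw [zero_add] at ew
  have hp0 : (p : ℂ) ≠ 0 := by exact_mod_cast hp.ne_zero
  have h6 : w * (starRingEnd ℂ) w = algebraMap ℚ ℂ ((d : ℚ) / p ^ 2) := by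
    rw [ew, map_mul, Complex.conj_natCast] at hz
    have e2 : (algebraMap ℚ ℂ) ((d : ℚ) / p ^ 2) = (d : ℂ) / (p : ℂ) ^ 2 := by
      simp
    rw [e2, eq_div_iff (pow_ne_zero 2 hp0)]
    linear_combination hz
  have h7 : IsIntegral ℤ (algebraMap ℚ ℂ ((d : ℚ) / p ^ 2)) := by
    rw [← h6]; exact hw.mul (integral_conj hw)
  have h8 : IsIntegral ℤ ((d : ℚ) / p ^ 2) :=
    (isIntegral_algebraMap_iff (algebraMap ℚ ℂ).injective).mp h7
  obtain ⟨n, hn⟩ := IsIntegrallyClosed.isIntegral_iff.mp h8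
  have hp0' : (p : ℚ) ≠ 0 := by exact_mod_cast hp.ne_zero
  have h9 : (d : ℚ) = n * p ^ 2 := by
    have : (n : ℚ) = (d : ℚ) / p ^ 2 := by simpa using hn
    rw [this]; field_simp
  have h10 : (d : ℤ) = n * (p : ℤ) ^ 2 := by exact_mod_cast h9
  apply hd2
  have : ((p ^ 2 : ℕ) : ℤ) ∣ (d : ℤ) := ⟨n, by push_cast; rw [h10]; ring⟩
  exact_mod_cast this

theorem root_integral {m : ℕ} (hm : m ≠ 0) {a : ℂ} (ha : a ^ m = 1) : IsIntegral ℤ a := by
  refine IsIntegral.of_pow (Nat.pos_of_ne_zero hm) ?_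
  rw [ha]; exact isIntegral_one

theorem root_norm {m : ℕ} (hm : m ≠ 0) {a : ℂ} (ha : a ^ m = 1) : ‖a‖ = 1 :=
  Complex.norm_eq_one_of_pow_eq_one ha hm

theorem root_conj {m : ℕ} (hm : m ≠ 0) {a : ℂ} (ha : a ^ m = 1) :
    a * (starRingEnd ℂ) a = 1 := by
  rw [Complex.mul_conj, Complex.normSq_eq_norm_sq, root_norm hm ha]; simp

/-- six roots of unity of a good order never have a sum of squared modulus six -/
theorem six {m : ℕ} (hm : (∃ j, 1 ≤ j ∧ m ∣ 2 * (2 ^ j + 1)) ∨ (∃ j, 1 ≤ j ∧ m ∣ 3 ^ j + 1))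
    (x : Fin 6 → ℂ) (hx : ∀ i, x i ^ m = 1) :
    (∑ i, x i) * (starRingEnd ℂ) (∑ i, x i) ≠ (6 : ℂ) := by
  rcases hm with ⟨j, hj, c, hc⟩ | ⟨j, hj, c, hc⟩
  · have hm0 : m ≠ 0 := by
      rintro rfl
      rw [zero_mul] at hc
      have : 0 < 2 ^ j := by positivity
      omega
    have key := core Nat.prime_two hj univ x (fun i => root_integral hm0 (hx i)) ?_ 6
      (by norm_num) (by norm_num)
    · exact_mod_cast key
    · intro i
      have h1 : (x i ^ (2 ^ j + 1)) ^ 2 = 1 := by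
        rw [← pow_mul, mul_comm, hc, pow_mul, hx i, one_pow]
      have hco := root_conj hm0 (hx i)
      have h3 : x i ^ 2 ^ j = x i ^ (2 ^ j + 1) * (starRingEnd ℂ) (x i) := by
        rw [pow_succ, mul_assoc, hco, mul_one]
      rcases sq_eq_one_iff.mp h1 with h2 | h2
      · rw [h3, h2, one_mul]; exact Cg.refl _ _
      · rw [h3, h2]
        exact ⟨-(starRingEnd ℂ) (x i), (integral_conj (root_integral hm0 (hx i))).neg, by
          push_cast; ring⟩
  · have hm0 : m ≠ 0 := by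
      rintro rfl
      rw [zero_mul] at hc
      exact Nat.succ_ne_zero _ hc
    have key := core Nat.prime_three hj univ x (fun i => root_integral hm0 (hx i)) ?_ 6
      (by norm_num) (by norm_num)
    · exact_mod_cast key
    · intro i
      have h2 : x i ^ (3 ^ j + 1) = 1 := by rw [hc, pow_mul, hx i, one_pow]
      have hco := root_conj hm0 (hx i)
      have h3 : x i ^ 3 ^ j = x i ^ (3 ^ j + 1) * (starRingEnd ℂ) (x i) := by
        rw [pow_succ, mul_assoc, hco, mul_one]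
      rw [h3, h2, one_mul]
      exact Cg.refl _ _

end P355R
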